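import Vale.Agent.P249.R2.H445.Spec2

set_option autoImplicit false

/-! Lower bound with control of the aspect ratio. -/

open MeasureTheory
open scoped ENNReal

namespace Vale.Agent.P249.H134

open Vale.Agent.P249 Vale.Agent.P249.H445

theorem core (hsep : SpecSep) {p : ℝ≥0∞} [hp1 : Fact (1 ≤ p)] (hptop : p ≠ ∞) {D : ℝ}
    (hD : 1 ≤ D) :
    ∃ c : ℝ, 0 < c ∧ ∀ (k n : ℕ), 0 < k → 2 * k ^ k ≤ n → (k : ℝ) ≤ 1 + Real.log n →
      ∃ X : Finset (Lp ℝ p (ballMeasure (EuclideanSpace ℂ (Fin k)))), 2 ≤ X.card ∧ X.card ≤ n ∧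
      (∀ x ∈ X, ∀ y ∈ X, ∀ x' ∈ X, ∀ y' ∈ X, x' ≠ y' →
        ‖x - y‖ ≤ 2 * (1 + Real.log n) ^ 2 * ‖x' - y'‖) ∧
      ∀ (d : ℕ) (f : Lp ℝ p (ballMeasure (EuclideanSpace ℂ (Fin k))) →
        PiLp p (fun _ : Fin d => ℝ)), DistortionAtMost X f D →
      c * (k : ℝ) ^ (p.toReal / 2) ≤ d := by
  classical
  obtain ⟨c, hc, hlow⟩ := grid_lower (p := p) hptop hD
  refine ⟨c, hc, fun k n hk hn hkn => ?_⟩
  have hne : Nonempty (Fin k) := ⟨⟨0, hk⟩⟩
  have hnt : Nontrivial (EuclideanSpace ℂ (Fin k)) := inferInstance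
  obtain ⟨c', hc', J, hJ⟩ := exists_scaled_isometry (H := EuclideanSpace ℂ (Fin k)) p
    (zero_lt_one.trans_le hp1.out).ne'
  have hk1 : (1 : ℝ) ≤ k := by exact_mod_cast hk
  have hk0 : (0 : ℝ) < k := by linarith only [hk1]
  have hkk : Real.sqrt k ≤ k := by
    rw [Real.sqrt_le_left (by positivity)]
    nlinarith only [hk1]
  refine ⟨(gridSet k k).image J, ?_, (Finset.card_image_le.trans (gridSet_card_le k k)).trans hn,
    ?_, fun d f hf => ?_⟩
  · -- two points
    have hx := gridPt_mem k k (fun _ => ⟨0, hk⟩)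
    have hy := neg_gridPt_mem k k (fun _ => ⟨0, hk⟩)
    have hne : J (gridPt k k fun _ => ⟨0, hk⟩) ≠ J (-gridPt k k fun _ => ⟨0, hk⟩) := by
      intro h
      have h1 := hJ (gridPt k k fun _ => ⟨0, hk⟩) (-gridPt k k fun _ => ⟨0, hk⟩)
      rw [h, sub_self, norm_zero, sub_neg_eq_add, ← two_smul ℝ, norm_smul, gridPt, norm_torus,
        Real.norm_eq_abs, abs_of_pos (by norm_num : (0 : ℝ) < 2)] at h1
      have h2 : 0 < Real.sqrt k := Real.sqrt_pos.2 hk0
      have h3 : 0 < c' * (2 * Real.sqrt k) := by positivity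
      linarith only [h1, h3]
    exact Finset.one_lt_card.2 ⟨_, Finset.mem_image_of_mem J hx, _, Finset.mem_image_of_mem J hy, hne⟩
  · intro x hx y hy x' hx' y' hy' hne'
    obtain ⟨a, ha, rfl⟩ := Finset.mem_image.1 hx
    obtain ⟨b, hb, rfl⟩ := Finset.mem_image.1 hy
    obtain ⟨a', ha', rfl⟩ := Finset.mem_image.1 hx'
    obtain ⟨b', hb', rfl⟩ := Finset.mem_image.1 hy'
    rw [hJ, hJ]
    have h1 := (hsep k hk a ha b hb).1
    have h2 := (hsep k hk a' ha' b' hb').2 (fun h => hne' (by rw [h]))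
    rw [div_le_iff₀ hk0] at h2
    have h3 : (k : ℝ) ^ 2 ≤ (1 + Real.log n) ^ 2 := pow_le_pow_left₀ hk0.le hkn 2
    have hn0 := norm_nonneg (a' - b')
    have h4 : ‖a - b‖ ≤ 2 * (1 + Real.log n) ^ 2 * ‖a' - b'‖ := by
      calc ‖a - b‖ ≤ 2 * (k : ℝ) * 1 := by linarith only [h1, hkk]
        _ ≤ 2 * (k : ℝ) * (‖a' - b'‖ * k) := by gcongr
        _ = 2 * (k : ℝ) ^ 2 * ‖a' - b'‖ := by ring
        _ ≤ 2 * (1 + Real.log n) ^ 2 * ‖a' - b'‖ := by gcongr
    calc c' * ‖a - b‖ ≤ c' * (2 * (1 + Real.log n) ^ 2 * ‖a' - b'‖) := by gcongr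
      _ = _ := by ring
  · obtain ⟨s, hs, hsf⟩ := hf
    refine hlow k k hk hkk d (fun x => f (J x)) (s * c') (by positivity) fun x hx y hy => ?_
    have h := hsf (J x) (Finset.mem_image_of_mem J hx) (J y) (Finset.mem_image_of_mem J hy)
    rw [hJ] at h
    refine ⟨le_trans (le_of_eq (by ring)) h.1, h.2.trans (le_of_eq (by ring))⟩

theorem k_le_log {k n : ℕ} (hk : 0 < k) (hn : 16 ≤ n) (h : 2 * k ^ k ≤ n) :
    (k : ℝ) ≤ 1 + Real.log n := by
  have hn' : (16 : ℝ) ≤ n := by exact_mod_cast hn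
  have hlog1 : 1 ≤ Real.log n := by
    rw [Real.le_log_iff_exp_le (by linarith only [hn'])]
    linarith only [Real.exp_one_lt_d9, hn']
  rcases Nat.lt_or_ge k 3 with h3 | h3
  · have : (k : ℝ) ≤ 2 := by exact_mod_cast (by omega : k ≤ 2)
    linarith only [this, hlog1]
  · have hk3 : (3 : ℝ) ≤ k := by exact_mod_cast h3
    have h4 : (k : ℝ) ^ k ≤ n := by
      have : k ^ k ≤ n := by omega
      exact_mod_cast this
    have h5 : Real.log ((k : ℝ) ^ k) ≤ Real.log n := Real.log_le_log (by positivity) h4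
    rw [Real.log_pow] at h5
    have h6 : 1 ≤ Real.log k := by
      rw [Real.le_log_iff_exp_le (by linarith only [hk3])]
      linarith only [Real.exp_one_lt_d9, hk3]
    nlinarith only [h5, h6, hk3]

theorem low (hsep : SpecSep) : SpecLow := by
  intro p hp1 hptop D hD
  obtain ⟨c, hc, hlow⟩ := core hsep (p := p) hptop hD
  set q := p.toReal / 2 with hq
  have hq0 : 0 ≤ q := by (clear * -; positivity)
  set S : ℝ := ∑ n ∈ Finset.range 16, |(Real.log n / Real.log (Real.log n)) ^ q| with hS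
  have hS0 : 0 ≤ S := Finset.sum_nonneg fun _ _ => abs_nonneg _
  refine ⟨min (c / 4 ^ q) (c / (1 + S)), by (clear * - hc hS0; positivity), fun n hn => ?_⟩
  rcases lt_or_ge n 16 with h16 | h16
  · have hn1 : (1 : ℝ) ≤ n := by exact_mod_cast (by omega : 1 ≤ n)
    obtain ⟨X, hX2, hXn, hXa, hXf⟩ := hlow 1 n one_pos (by rw [one_pow]; omega)
      (by have := Real.log_nonneg hn1; push_cast; linarith only [this])
    refine ⟨EuclideanSpace ℂ (Fin 1), inferInstance, ballMeasure _, X, hX2, hXn, hXa,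
      fun d f hf => ?_⟩
    have h0 := hXf d f hf
    rw [Nat.cast_one, Real.one_rpow, mul_one] at h0
    have h1 : (Real.log n / Real.log (Real.log n)) ^ q ≤ 1 + S := by
      have : |(Real.log n / Real.log (Real.log n)) ^ q| ≤ S :=
        Finset.single_le_sum (f := fun n : ℕ => |(Real.log n / Real.log (Real.log n)) ^ q|)
          (fun _ _ => abs_nonneg _) (Finset.mem_range.2 h16)
      linarith only [le_abs_self ((Real.log n / Real.log (Real.log n)) ^ q), this]
    rcases le_total 0 ((Real.log n / Real.log (Real.log n)) ^ q) with h2 | h2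
    · calc min (c / 4 ^ q) (c / (1 + S)) * (Real.log n / Real.log (Real.log n)) ^ q
          ≤ (c / (1 + S)) * (1 + S) := by
            gcongr
            exact min_le_right _ _
        _ = c := by field_simp
        _ ≤ d := h0
    · have : min (c / 4 ^ q) (c / (1 + S)) * (Real.log n / Real.log (Real.log n)) ^ q ≤ 0 :=
        mul_nonpos_of_nonneg_of_nonpos (by (clear * - hc hS0; positivity)) h2
      linarith only [h0, hc, this]
  · obtain ⟨k, hk, hkn, hkl⟩ := exists_k h16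
    obtain ⟨X, hX2, hXn, hXa, hXf⟩ := hlow k n hk hkn (k_le_log hk h16 hkn)
    refine ⟨EuclideanSpace ℂ (Fin k), inferInstance, ballMeasure _, X, hX2, hXn, hXa,
      fun d f hf => ?_⟩
    have h1 := hXf d f hf
    have hn' : (16 : ℝ) ≤ n := by exact_mod_cast h16
    have hlogn : 1 < Real.log n := by
      rw [Real.lt_log_iff_exp_lt (by linarith only [hn'])]
      linarith only [Real.exp_one_lt_d9, hn']
    have hLL : 0 ≤ Real.log (Real.log n) := Real.log_nonneg hlogn.le
    have hy0 : 0 ≤ Real.log n / Real.log (Real.log n) := div_nonneg (by linarith only [hlogn]) hLL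
    have h4 : (0 : ℝ) < 4 ^ q := by positivity
    calc min (c / 4 ^ q) (c / (1 + S)) * (Real.log n / Real.log (Real.log n)) ^ q
        ≤ (c / 4 ^ q) * (4 * k) ^ q := by
          gcongr
          exact min_le_left _ _
      _ = c * (k : ℝ) ^ q := by
          rw [Real.mul_rpow (by norm_num) (by positivity)]
          field_simp
      _ ≤ d := h1

end Vale.Agent.P249.H134
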