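import Vale.Agent.P249.R2.H445.Spec2

set_option autoImplicit false

/-! Separation and diameter of the symmetric grid. -/

namespace Vale.Agent.P249.H134

open Vale.Agent.P249 Vale.Agent.P249.H445

theorem pow_sub_one_le {w : ℂ} (h1 : ‖w‖ = 1) (j : ℕ) : ‖w ^ j - 1‖ ≤ j * ‖w - 1‖ := by
  induction j with
  | zero => simp
  | succ j ih =>
    have e : w ^ (j + 1) - 1 = w * (w ^ j - 1) + (w - 1) := by ring
    rw [e]
    refine (norm_add_le _ _).trans ?_
    rw [norm_mul, h1, one_mul]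
    push_cast
    linarith

theorem root_sep {w : ℂ} {k : ℕ} (hk : 0 < k) (hw : w ^ (2 * k) = 1) (h : w ≠ 1) :
    1 / (k : ℝ) ≤ ‖w - 1‖ := by
  have h1 : ‖w‖ = 1 := Complex.norm_eq_one_of_pow_eq_one hw (by omega)
  have hk' : (0 : ℝ) < k := by exact_mod_cast hk
  have hs : ∑ j ∈ Finset.range (2 * k), w ^ j = 0 := by
    have := mul_geom_sum w (2 * k)
    rw [hw, sub_self] at this
    exact (mul_eq_zero.1 this).resolve_left (sub_ne_zero.2 h)
  have h2 : ((2 * k : ℕ) : ℂ) = -∑ j ∈ Finset.range (2 * k), (w ^ j - 1) := by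
    rw [Finset.sum_sub_distrib, hs]
    simp
  have h3 : ((2 * k : ℕ) : ℝ) ≤ ∑ j ∈ Finset.range (2 * k), (j : ℝ) * ‖w - 1‖ := by
    calc ((2 * k : ℕ) : ℝ) = ‖((2 * k : ℕ) : ℂ)‖ := by rw [Complex.norm_natCast]
      _ = ‖∑ j ∈ Finset.range (2 * k), (w ^ j - 1)‖ := by rw [h2, norm_neg]
      _ ≤ ∑ j ∈ Finset.range (2 * k), ‖w ^ j - 1‖ := norm_sum_le _ _
      _ ≤ _ := Finset.sum_le_sum fun j _ => pow_sub_one_le h1 j
  rw [← Finset.sum_mul] at h3
  have h4 : (∑ j ∈ Finset.range (2 * k), (j : ℝ)) * 2 = 2 * k * (2 * k - 1) := by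
    have := Finset.sum_range_id_mul_two (2 * k)
    have h5 : ((∑ i ∈ Finset.range (2 * k), i : ℕ) : ℝ) * 2 = ((2 * k * (2 * k - 1) : ℕ) : ℝ) := by
      exact_mod_cast this
    push_cast [Nat.cast_sub (show 1 ≤ 2 * k by omega)] at h5
    exact h5
  rw [div_le_iff₀ hk']
  push_cast at h3
  have hn := norm_nonneg (w - 1)
  have h6 : 4 * (k : ℝ) ≤ (2 * k * (2 * k - 1)) * ‖w - 1‖ := by
    rw [← h4]; linarith
  have h7 : (2 * (k : ℝ)) * 2 ≤ (2 * k) * ((2 * k - 1) * ‖w - 1‖) := by linarith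
  have h8 : 2 ≤ (2 * (k : ℝ) - 1) * ‖w - 1‖ := le_of_mul_le_mul_left h7 (by positivity)
  nlinarith

theorem coord_pow {k : ℕ} (hk : 0 < k) {x : EuclideanSpace ℂ (Fin k)} (hx : x ∈ gridSet k k)
    (i : Fin k) : (x i) ^ (2 * k) = 1 := by
  classical
  have hk' : (k : ℂ) ≠ 0 := by exact_mod_cast hk.ne'
  have h1 : ∀ a : Fin k → Fin k, (gridPt k k a i) ^ (2 * k) = 1 := by
    intro a
    rw [gridPt, torus_apply, ← Complex.exp_nat_mul]
    have e : ((2 * k : ℕ) : ℂ) * (Complex.I * ((2 * Real.pi * (((a i : ℕ) : ℝ) / k) : ℝ) : ℂ)) =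
        ((2 * (a i : ℕ) : ℕ) : ℂ) * (2 * Real.pi * Complex.I) := by
      push_cast
      field_simp
    rw [show (WithLp.toLp 2 fun i => ((a i : ℕ) : ℝ) / (k : ℝ)) i = ((a i : ℕ) : ℝ) / k from rfl, e,
      Complex.exp_nat_mul, Complex.exp_two_pi_mul_I, one_pow]
  unfold gridSet at hx
  rw [Finset.mem_union, Finset.mem_image, Finset.mem_image] at hx
  rcases hx with ⟨a, -, rfl⟩ | ⟨a, -, rfl⟩
  · exact h1 a
  · rw [show (-gridPt k k a) i = -(gridPt k k a i) from rfl, Even.neg_pow (even_two_mul k)]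
    exact h1 a

theorem coord_norm {k : ℕ} (hk : 0 < k) {x : EuclideanSpace ℂ (Fin k)} (hx : x ∈ gridSet k k)
    (i : Fin k) : ‖x i‖ = 1 :=
  Complex.norm_eq_one_of_pow_eq_one (coord_pow hk hx i) (by omega)

theorem norm_grid {k : ℕ} (hk : 0 < k) {x : EuclideanSpace ℂ (Fin k)} (hx : x ∈ gridSet k k) :
    ‖x‖ = Real.sqrt k := by
  rw [EuclideanSpace.norm_eq]
  congr 1
  rw [Finset.sum_congr rfl fun i _ => by rw [coord_norm hk hx i, one_pow]]
  simp

theorem sep : SpecSep := by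
  intro k hk x hx y hy
  refine ⟨?_, fun hxy => ?_⟩
  · refine (norm_sub_le x y).trans ?_
    rw [norm_grid hk hx, norm_grid hk hy]
    linarith
  · have hex : ∃ i, x i ≠ y i := by
      by_contra hcon
      push Not at hcon
      exact hxy (by ext i; exact hcon i)
    obtain ⟨i, hi⟩ := hex
    have hy1 := coord_norm hk hy i
    have hy0 : y i ≠ 0 := fun h => by rw [h, norm_zero] at hy1; exact zero_ne_one hy1
    have hw : (x i / y i) ^ (2 * k) = 1 := by
      rw [div_pow, coord_pow hk hx i, coord_pow hk hy i, div_one]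
    have hw1 : x i / y i ≠ 1 := fun h => hi ((div_eq_one_iff_eq hy0).1 h)
    have h1 := root_sep hk hw hw1
    have h2 : ‖x i / y i - 1‖ = ‖(x - y) i‖ := by
      have e : (x - y) i = y i * (x i / y i - 1) := by
        show x i - y i = _
        field_simp
      rw [e, norm_mul, hy1, one_mul]
    rw [h2] at h1
    exact h1.trans (PiLp.norm_apply_le (x - y) i)

end Vale.Agent.P249.H134
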